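import Mathlib
import Vale.Agent.Lib.P335.helper26.Abstract

/-!
Abstract pairwise inequality for two fibrations with a common fibre-preserving involution.

`Ω` is a finite set with the uniform measure, `κp`, `κq` are two keys (their fibres are the
`p`-fibres and the `q`-fibres), `τ` is an involution of `Ω` preserving both keys, and
`X = {ω | τ ω ≠ ω}`.  With the refined keys `rkey κ τ ω = (κ ω, decide (τ ω ≠ ω))` and three
commutation hypotheses between the conditional expectations, plus the hypothesis that a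
point outside `X` has a `p`-fibre or a `q`-fibre that misses `X`, we get

`ip (f - cexp κp f) (f - cexp κq f) ≥ (1/4) ∑ (f ω - f (τ ω))^2 - (1/2) KK κp τ f - (1/2) KK κq τ f`.
-/

namespace Vale.Agent.Lib.P335.H95

open Finset
open Vale.Agent.Lib.P335.Bip

section

set_option linter.unusedSectionVars false

variable {Ω : Type*} [Fintype Ω]

/-- Two commuting symmetric idempotent maps have a nonnegative mixed form. -/
theorem ip_nonneg_of_commute (A B : (Ω → ℝ) → (Ω → ℝ))
    (hA : ∀ f g, ip f (A g) = ip (A f) g) (hB : ∀ f g, ip f (B g) = ip (B f) g)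
    (hA2 : ∀ f, A (A f) = A f) (hB2 : ∀ f, B (B f) = B f)
    (hAB : ∀ f, A (B f) = B (A f)) (g : Ω → ℝ) : 0 ≤ ip (A g) (B g) := by
  have h : ip (A g) (B g) = ip (A (B g)) (A (B g)) := by
    calc ip (A g) (B g) = ip g (A (B g)) := (hA g (B g)).symm
      _ = ip g (A (A (B (B g)))) := by rw [hA2, hB2]
      _ = ip g (A (B (A (B g)))) := by rw [hAB (B g)]
      _ = ip (A g) (B (A (B g))) := hA g _
      _ = ip (B (A g)) (A (B g)) := hB (A g) _
      _ = ip (A (B g)) (A (B g)) := by rw [← hAB g]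
  rw [h]
  exact ip_self_nonneg _

variable [DecidableEq Ω]

/-- The key `κ` refined by the indicator of the set moved by `τ`. -/
def rkey {K : Type*} (κ : Ω → K) (τ : Ω → Ω) (ω : Ω) : K × Bool := (κ ω, decide (τ ω ≠ ω))

/-- The correction term: squared difference, on the set moved by `τ`, between the mean of `f`
over the moved part of the fibre and the mean over the whole fibre. -/
noncomputable def KK {K : Type*} [DecidableEq K] (κ : Ω → K) (τ : Ω → Ω) (f : Ω → ℝ) : ℝ :=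
  ∑ ω, if τ ω ≠ ω then (cexp (rkey κ τ) f ω - cexp κ f ω) ^ 2 else 0

theorem rkey_coarse {K : Type*} (κ : Ω → K) (τ : Ω → Ω) (x y : Ω)
    (h : rkey κ τ x = rkey κ τ y) : κ x = κ y := by
  have := congrArg Prod.fst h
  simpa [rkey] using this


theorem sub_cexp_symm {K : Type*} [DecidableEq K] (κ : Ω → K) (f g : Ω → ℝ) :
    ip f (g - cexp κ g) = ip (f - cexp κ f) g := by
  rw [ip_sub_right, ip_sub_left, cexp_symm]

theorem sub_cexp_idem {K : Type*} [DecidableEq K] (κ : Ω → K) (g : Ω → ℝ) :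
    (g - cexp κ g) - cexp κ (g - cexp κ g) = g - cexp κ g := by
  rw [map_sub, cexp_idem, sub_self, sub_zero]

theorem diff_cexp_symm {K K' : Type*} [DecidableEq K] [DecidableEq K'] (κ : Ω → K) (κ' : Ω → K')
    (f g : Ω → ℝ) :
    ip f (cexp κ' g - cexp κ g) = ip (cexp κ' f - cexp κ f) g := by
  rw [ip_sub_right, ip_sub_left, cexp_symm, cexp_symm]

theorem diff_cexp_idem {K K' : Type*} [DecidableEq K] [DecidableEq K'] (κ : Ω → K) (κ' : Ω → K')
    (hc : ∀ x y, κ' x = κ' y → κ x = κ y) (g : Ω → ℝ) :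
    cexp κ' (cexp κ' g - cexp κ g) - cexp κ (cexp κ' g - cexp κ g) = cexp κ' g - cexp κ g := by
  rw [map_sub, map_sub, cexp_idem, cexp_idem, cexp_tower' κ' κ hc, cexp_tower κ' κ hc, sub_self,
    sub_zero]

/-- If the whole `κ`-fibre of `ω` is fixed by `τ`, the refined conditional expectation agrees
with the plain one at `ω`. -/
theorem cexp_rkey_eq {K : Type*} [DecidableEq K] (κ : Ω → K) (τ : Ω → Ω) (g : Ω → ℝ) (ω : Ω)
    (h : ∀ ω', κ ω' = κ ω → τ ω' = ω') : cexp (rkey κ τ) g ω = cexp κ g ω := by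
  rw [cexp_apply, cexp_apply]
  have hfil : univ.filter (fun y => rkey κ τ y = rkey κ τ ω) = univ.filter (fun y => κ y = κ ω) := by
    ext y
    simp only [mem_filter, mem_univ, true_and, rkey, Prod.mk.injEq]
    constructor
    · exact fun h' => h'.1
    · intro hy
      refine ⟨hy, ?_⟩
      have h1 := h y hy
      have h2 := h ω rfl
      simp [h1, h2]
  rw [hfil]

/-- Conditional expectations are invariant under a fibre-preserving involution. -/
theorem cexp_comp_invol {K : Type*} [DecidableEq K] (κ : Ω → K) (τ : Ω → Ω)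
    (hinv : ∀ ω, τ (τ ω) = ω) (hκ : ∀ ω, κ (τ ω) = κ ω) (f : Ω → ℝ) :
    cexp κ (fun ω => f (τ ω)) = cexp κ f := by
  have hi : Function.Involutive τ := hinv
  have h := cexp_comp_equiv κ (Function.Involutive.toPerm τ hi)
    (fun x y => by simp [hκ]) f
  funext ω
  have h2 := congrFun h ω
  simp only [Function.comp_apply, Function.Involutive.coe_toPerm] at h2
  show cexp κ (f ∘ τ) ω = cexp κ f ω
  rw [h2]
  exact cexp_congr κ (hκ ω) f

theorem rkey_invol {K : Type*} (κ : Ω → K) (τ : Ω → Ω) (hinv : ∀ ω, τ (τ ω) = ω)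
    (hκ : ∀ ω, κ (τ ω) = κ ω) (ω : Ω) : rkey κ τ (τ ω) = rkey κ τ ω := by
  unfold rkey
  rw [hκ, hinv]
  congr 1
  by_cases h : τ ω = ω
  · simp [h]
  · have : ω ≠ τ ω := fun h' => h h'.symm
    simp [h, this]


theorem cexp_symmetrize {K : Type*} [DecidableEq K] (κ : Ω → K) (τ : Ω → Ω)
    (hinv : ∀ ω, τ (τ ω) = ω) (hκ : ∀ ω, κ (τ ω) = κ ω) (f : Ω → ℝ) :
    cexp κ (fun ω => (f ω + f (τ ω)) / 2) = cexp κ f := by
  have h1 : (fun ω => (f ω + f (τ ω)) / 2) = (1 / 2 : ℝ) • (f + fun ω => f (τ ω)) := by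
    funext ω
    simp only [Pi.smul_apply, Pi.add_apply, smul_eq_mul]
    ring
  rw [h1, map_smul, map_add, cexp_comp_invol κ τ hinv hκ f]
  funext ω
  simp only [Pi.smul_apply, Pi.add_apply, smul_eq_mul]
  ring

/-- A `τ`-invariant function is orthogonal to a `τ`-anti-invariant one. -/
theorem ip_inv_anti (τ : Ω → Ω) (hinv : ∀ ω, τ (τ ω) = ω) (u a : Ω → ℝ)
    (hu : ∀ ω, u (τ ω) = u ω) (ha : ∀ ω, a (τ ω) = - a ω) : ip u a = 0 := by
  have h : ip u a = - ip u a := by
    unfold ip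
    have hi : Function.Involutive τ := hinv
    calc ∑ ω, u ω * a ω = ∑ ω, u (τ ω) * a (τ ω) :=
          (Equiv.sum_comp (Function.Involutive.toPerm τ hi) (fun ω => u ω * a ω)).symm
      _ = ∑ ω, - (u ω * a ω) := by
          refine Finset.sum_congr rfl (fun ω _ => ?_)
          rw [hu, ha]; ring
      _ = - ∑ ω, u ω * a ω := Finset.sum_neg_distrib _
  linarith

/-- Block inequality: three commutations give a lower bound by the product of the two
refinement corrections. -/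
theorem block_ineq {Kp Kq : Type*} [DecidableEq Kp] [DecidableEq Kq]
    (κp : Ω → Kp) (κq : Ω → Kq) (τ : Ω → Ω)
    (C1 : ∀ f : Ω → ℝ, cexp (rkey κp τ) (cexp κq f) = cexp κq (cexp (rkey κp τ) f))
    (C2 : ∀ f : Ω → ℝ, cexp (rkey κq τ) (cexp κp f) = cexp κp (cexp (rkey κq τ) f))
    (C3 : ∀ f : Ω → ℝ, cexp (rkey κp τ) (cexp (rkey κq τ) f)
      = cexp (rkey κq τ) (cexp (rkey κp τ) f))
    (g : Ω → ℝ) :
    ip (cexp (rkey κp τ) g - cexp κp g) (cexp (rkey κq τ) g - cexp κq g)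
      ≤ ip (g - cexp κp g) (g - cexp κq g) := by
  have hac := ip_nonneg_of_commute (fun h => h - cexp (rkey κp τ) h)
    (fun h => h - cexp (rkey κq τ) h) (sub_cexp_symm _) (sub_cexp_symm _) (sub_cexp_idem _)
    (sub_cexp_idem _) (by intro h; simp only [map_sub, C3]; abel) g
  have hae := ip_nonneg_of_commute (fun h => h - cexp (rkey κp τ) h)
    (fun h => cexp (rkey κq τ) h - cexp κq h) (sub_cexp_symm _) (diff_cexp_symm _ _)
    (sub_cexp_idem _) (diff_cexp_idem _ _ (rkey_coarse κq τ))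
    (by intro h; simp only [map_sub, C3, C1]; abel) g
  have hbc := ip_nonneg_of_commute (fun h => cexp (rkey κp τ) h - cexp κp h)
    (fun h => h - cexp (rkey κq τ) h) (diff_cexp_symm _ _) (sub_cexp_symm _)
    (diff_cexp_idem _ _ (rkey_coarse κp τ)) (sub_cexp_idem _)
    (by intro h; simp only [map_sub, C3, C2]; abel) g
  have e1 : g - cexp κp g = (g - cexp (rkey κp τ) g) + (cexp (rkey κp τ) g - cexp κp g) := by
    abel
  have e2 : g - cexp κq g = (g - cexp (rkey κq τ) g) + (cexp (rkey κq τ) g - cexp κq g) := by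
    abel
  rw [e1, e2, ip_add_left, ip_add_right, ip_add_right]
  beta_reduce at hac hae hbc
  linarith

/-- The product of the two corrections lives on the moved set and is bounded below by AM-GM. -/
theorem ip_diff_ge {Kp Kq : Type*} [DecidableEq Kp] [DecidableEq Kq]
    (κp : Ω → Kp) (κq : Ω → Kq) (τ : Ω → Ω)
    (V : ∀ ω, τ ω = ω → (∀ ω', κp ω' = κp ω → τ ω' = ω') ∨ (∀ ω', κq ω' = κq ω → τ ω' = ω'))
    (g : Ω → ℝ) :
    - (1 / 2) * KK κp τ g - (1 / 2) * KK κq τ g
      ≤ ip (cexp (rkey κp τ) g - cexp κp g) (cexp (rkey κq τ) g - cexp κq g) := by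
  unfold KK ip
  rw [Finset.mul_sum, Finset.mul_sum, ← Finset.sum_sub_distrib]
  apply Finset.sum_le_sum
  intro ω _
  simp only [Pi.sub_apply]
  by_cases h : τ ω = ω
  · rw [if_neg (by simpa using h), if_neg (by simpa using h)]
    rcases V ω h with h1 | h1
    · rw [cexp_rkey_eq κp τ g ω h1]; simp
    · rw [cexp_rkey_eq κq τ g ω h1]; simp
  · rw [if_pos h, if_pos h]
    nlinarith [sq_nonneg ((cexp (rkey κp τ) g ω - cexp κp g ω)
      + (cexp (rkey κq τ) g ω - cexp κq g ω))]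

/-- Abstract pairwise inequality. -/
theorem pair_abstract {Kp Kq : Type*} [DecidableEq Kp] [DecidableEq Kq]
    (κp : Ω → Kp) (κq : Ω → Kq) (τ : Ω → Ω)
    (hinv : ∀ ω, τ (τ ω) = ω) (hp : ∀ ω, κp (τ ω) = κp ω) (hq : ∀ ω, κq (τ ω) = κq ω)
    (C1 : ∀ f : Ω → ℝ, cexp (rkey κp τ) (cexp κq f) = cexp κq (cexp (rkey κp τ) f))
    (C2 : ∀ f : Ω → ℝ, cexp (rkey κq τ) (cexp κp f) = cexp κp (cexp (rkey κq τ) f))
    (C3 : ∀ f : Ω → ℝ, cexp (rkey κp τ) (cexp (rkey κq τ) f)
      = cexp (rkey κq τ) (cexp (rkey κp τ) f))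
    (V : ∀ ω, τ ω = ω → (∀ ω', κp ω' = κp ω → τ ω' = ω') ∨ (∀ ω', κq ω' = κq ω → τ ω' = ω'))
    (f : Ω → ℝ) :
    (1 / 4) * ∑ ω, (f ω - f (τ ω)) ^ 2 - (1 / 2) * KK κp τ f - (1 / 2) * KK κq τ f
      ≤ ip (f - cexp κp f) (f - cexp κq f) := by
  set fs : Ω → ℝ := fun ω => (f ω + f (τ ω)) / 2 with hfs
  set fa : Ω → ℝ := fun ω => (f ω - f (τ ω)) / 2 with hfa
  have hE : cexp κp fs = cexp κp f := cexp_symmetrize κp τ hinv hp f
  have hF : cexp κq fs = cexp κq f := cexp_symmetrize κq τ hinv hq f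
  have hE' : cexp (rkey κp τ) fs = cexp (rkey κp τ) f :=
    cexp_symmetrize (rkey κp τ) τ hinv (rkey_invol κp τ hinv hp) f
  have hF' : cexp (rkey κq τ) fs = cexp (rkey κq τ) f :=
    cexp_symmetrize (rkey κq τ) τ hinv (rkey_invol κq τ hinv hq) f
  have hKp : KK κp τ fs = KK κp τ f := by unfold KK; rw [hE', hE]
  have hKq : KK κq τ fs = KK κq τ f := by unfold KK; rw [hF', hF]
  have hdp : f - cexp κp f = (fs - cexp κp fs) + fa := by
    rw [hE]; funext ω; simp only [Pi.sub_apply, Pi.add_apply, hfs, hfa]; ring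
  have hdq : f - cexp κq f = (fs - cexp κq fs) + fa := by
    rw [hF]; funext ω; simp only [Pi.sub_apply, Pi.add_apply, hfs, hfa]; ring
  have hfsτ : ∀ ω, fs (τ ω) = fs ω := by
    intro ω; simp only [hfs, hinv]; ring
  have hfaτ : ∀ ω, fa (τ ω) = - fa ω := by
    intro ω; simp only [hfa, hinv]; ring
  have hz1 : ip (fs - cexp κp fs) fa = 0 :=
    ip_inv_anti τ hinv _ _ (fun ω => by
      simp only [Pi.sub_apply, hfsτ, cexp_congr κp (hp ω) fs]) hfaτ
  have hz2 : ip fa (fs - cexp κq fs) = 0 := by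
    rw [ip_comm]
    exact ip_inv_anti τ hinv _ _ (fun ω => by
      simp only [Pi.sub_apply, hfsτ, cexp_congr κq (hq ω) fs]) hfaτ
  have haa : ip fa fa = (1 / 4) * ∑ ω, (f ω - f (τ ω)) ^ 2 := by
    unfold ip
    rw [Finset.mul_sum]
    refine Finset.sum_congr rfl (fun ω _ => ?_)
    simp only [hfa]; ring
  have hB := block_ineq κp κq τ C1 C2 C3 fs
  have hC := ip_diff_ge κp κq τ V fs
  rw [hdp, hdq, ip_add_left, ip_add_right, ip_add_right, hz1, hz2, haa]
  rw [hKp, hKq] at hC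
  linarith

end

end Vale.Agent.Lib.P335.H95
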